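import Vale.Agent.P011.MPQ.Defs
import Vale.Agent.P011.H271.KSF

/-!
# Quaternion algebras over function fields: local symbols, ramified places, statements (helper732)
-/

namespace Vale.Agent.P011.H732Q

open Vale.Agent.P011.H738 Vale.Agent.P011.H271 Vale.Agent.P011.MPQ

section

variable {F : Type} [Field F]

/-- The symbol `(s, t)` is trivial at `v`. -/
def Sym (v : Place F) (s t : F) : Prop :=
  ∃ x y z : v.comp, ¬ (x = 0 ∧ y = 0 ∧ z = 0) ∧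
    x ^ 2 = algebraMap F v.comp s * y ^ 2 + algebraMap F v.comp t * z ^ 2

/-- The form `⟨1, -e, -t, t e'⟩` is isotropic at `v`. -/
def Iso4 (v : Place F) (e t e' : F) : Prop :=
  ∃ x y z w : v.comp, ¬ (x = 0 ∧ y = 0 ∧ z = 0 ∧ w = 0) ∧
    x ^ 2 - algebraMap F v.comp e * y ^ 2 =
      algebraMap F v.comp t * (z ^ 2 - algebraMap F v.comp e' * w ^ 2)

/-- `v` is ramified in the quaternion algebra. -/
def RamF (a b : Fˣ) (v : Place F) : Prop :=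
  ∀ x y z t : v.comp, x ^ 2 - algebraMap F v.comp a * y ^ 2 - algebraMap F v.comp b * z ^ 2 +
    algebraMap F v.comp a * algebraMap F v.comp b * t ^ 2 = 0 → x = 0 ∧ y = 0 ∧ z = 0 ∧ t = 0

end

/-- (M1) -/
def HM4 : Prop := ∀ (F : Type) [Field F] [GFF F], (2 : F) ≠ 0 → ∀ e t e' : F, e ≠ 0 → t ≠ 0 →
  e' ≠ 0 → (∀ v : Place F, Iso4 v e t e' ∨ (v.abv e = 1 ∧ v.abv t = 1)) →
  ∃ x y z w : F, ¬ (x = 0 ∧ y = 0 ∧ z = 0 ∧ w = 0) ∧ x ^ 2 - e * y ^ 2 = t * (z ^ 2 - e' * w ^ 2)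

/-- (M2) -/
def HYP : Prop := ∀ (F : Type) [Field F] [GFF F], (2 : F) ≠ 0 → ∀ a b : Fˣ, Aniso a b →
  ∀ (x : SL1 a b) (S : Set (Place F)), S.Finite → (∀ v ∈ S, ¬ RamF a b v) →
  ∃ n ∈ commutator (SL1 a b), ∀ v ∈ S, 1 < v.abv (((x * n : SL1 a b) : (Qt a b)ˣ) : Qt a b).re

/-- (M3) -/
def SYM1 : Prop := ∀ (F : Type) [Field F] [GFF F], (2 : F) ≠ 0 → ∀ (v : Place F) (s t : F),
  v.abv s = 1 → v.abv t = 1 → Sym v s t

/-- (M3) -/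
def SQ1 : Prop := ∀ (F : Type) [Field F] [GFF F], (2 : F) ≠ 0 → ∀ (v : Place F) (x : v.comp),
  ‖x - 1‖ < 1 → ∃ y : v.comp, y ^ 2 = x ∧ ‖y - 1‖ < 1

/-- (M3) -/
def RAMFIN : Prop := ∀ (F : Type) [Field F] [GFF F], (2 : F) ≠ 0 → ∀ a b : Fˣ,
  {v : Place F | RamF a b v}.Finite

/-- The target. -/
def MPQAB : Prop := ∀ (F : Type) [Field F] [GFF F], (2 : F) ≠ 0 → ∀ a b : Fˣ, Aniso a b →
  ∀ g : SL1 a b, (∀ v : Place F, RamF a b v →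
    v.abv (nrd ((((g : (Qt a b)ˣ) : Qt a b)) - 1)) < 1) → g ∈ commutator (SL1 a b)

end Vale.Agent.P011.H732Q
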